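import Vale.Agent.P171.Goals

/-!
# P171, block B2: elementary properties of the grand canonical partition function
-/

open MeasureTheory Set Filter Topology
open scoped ENNReal

namespace Vale.Agent.P171

namespace Blk2

/-- the weight of a configuration -/
noncomputable def wt (ψ : E → E → ℝ) (μ : ℝ) {n : ℕ} (x : Fin n → E) : ℝ≥0∞ :=
  ENNReal.ofReal (Real.exp (μ * n + pairSum ψ x))

/-- the `n`-th term of `Xi` -/
theorem term_eq (Λ : Set E) (ψ : E → E → ℝ) (μ : ℝ) (n : ℕ) :
    ENNReal.ofReal (Real.exp (μ * n)) * Zc n Λ ψ =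
      ((n.factorial : ℝ≥0∞))⁻¹ * ∫⁻ x in Set.pi univ (fun _ : Fin n => Λ), wt ψ μ x := by
  rw [Zc, mul_left_comm, ← lintegral_const_mul' _ _ ENNReal.ofReal_ne_top]
  congr 1
  refine lintegral_congr fun x => ?_
  rw [wt, Real.exp_add, ENNReal.ofReal_mul (Real.exp_pos _).le]

theorem Xi_eq (Λ : Set E) (ψ : E → E → ℝ) (μ : ℝ) :
    Xi Λ ψ μ = ∑' n : ℕ, ((n.factorial : ℝ≥0∞))⁻¹ *
      ∫⁻ x in Set.pi univ (fun _ : Fin n => Λ), wt ψ μ x :=
  tsum_congr fun n => term_eq Λ ψ μ n

theorem measurableSet_box {Λ : Set E} (hΛ : MeasurableSet Λ) (n : ℕ) :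
    MeasurableSet (Set.pi univ (fun _ : Fin n => Λ)) :=
  MeasurableSet.univ_pi fun _ => hΛ

theorem measurable_pairSum {ψ : E → E → ℝ} (h : Measurable (Function.uncurry ψ)) (n : ℕ) :
    Measurable (fun x : Fin n → E => pairSum ψ x) := by
  unfold pairSum
  refine Measurable.const_mul ?_ _
  refine Finset.measurable_sum _ fun i _ => Finset.measurable_sum _ fun j _ => ?_
  have h1 : Measurable (fun x : Fin n → E => (x i, x j)) :=
    (measurable_pi_apply i).prodMk (measurable_pi_apply j)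
  exact h.comp h1

theorem measurable_wt {ψ : E → E → ℝ} (h : Measurable (Function.uncurry ψ)) (μ : ℝ) (n : ℕ) :
    Measurable (fun x : Fin n → E => wt ψ μ x) := by
  unfold wt
  exact (Real.measurable_exp.comp (measurable_const.add (measurable_pairSum h n))).ennreal_ofReal

end Blk2

open Blk2

theorem b2mono_set : B2mono_set := by
  intro Λ Λ' ψ μ h
  rw [Xi_eq, Xi_eq]
  refine ENNReal.tsum_le_tsum fun n => ?_
  exact mul_le_mul_right (lintegral_mono_set (Set.pi_mono fun _ _ => h)) _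

theorem b2mono : B2mono := by
  intro Λ ψ ψ' μ μ' hΛ h
  rw [Xi_eq, Xi_eq]
  refine ENNReal.tsum_le_tsum fun n => ?_
  refine mul_le_mul_right (setLIntegral_mono' (measurableSet_box hΛ n) fun x hx => ?_) _
  refine ENNReal.ofReal_le_ofReal (Real.exp_le_exp.2 (h n x fun i => hx i (mem_univ i)))

theorem b2congr : B2congr := by
  intro Λ ψ ψ' μ hΛ h
  rw [Xi_eq, Xi_eq]
  refine tsum_congr fun n => ?_
  congr 1
  refine setLIntegral_congr_fun (measurableSet_box hΛ n) fun x hx => ?_
  have e : pairSum ψ x = pairSum ψ' x := by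
    unfold pairSum
    congr 1
    refine Finset.sum_congr rfl fun i _ => Finset.sum_congr rfl fun j _ => ?_
    exact h _ (hx i (mem_univ i)) _ (hx j (mem_univ j))
  simp only [wt, e]

theorem b2trans : B2trans := by
  intro Λ ψ μ a hΛ hψ htr
  rw [Xi_eq, Xi_eq]
  refine tsum_congr fun n => ?_
  congr 1
  have hΛ' : MeasurableSet ((fun x => x + a) '' Λ) :=
    (MeasurableEquiv.addRight a).measurableEmbedding.measurableSet_image.2 hΛ
  rw [← lintegral_indicator (measurableSet_box hΛ' n), ← lintegral_indicator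
    (measurableSet_box hΛ n), ← lintegral_add_right_eq_self _ (fun _ : Fin n => a)]
  refine lintegral_congr fun x => ?_
  have hmem : (x + fun _ : Fin n => a) ∈ Set.pi univ (fun _ : Fin n => (fun x => x + a) '' Λ) ↔
      x ∈ Set.pi univ (fun _ : Fin n => Λ) := by
    simp only [Set.mem_pi, mem_univ, true_imp_iff, Pi.add_apply]
    refine forall_congr' fun i => ?_
    constructor
    · rintro ⟨y, hy, hyx⟩
      have : y = x i := add_right_cancel hyx
      rwa [← this]
    · intro hx
      exact ⟨x i, hx, rfl⟩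
  have hw : wt ψ μ (x + fun _ : Fin n => a) = wt ψ μ x := by
    have e : pairSum ψ (x + fun _ : Fin n => a) = pairSum ψ x := by
      unfold pairSum
      congr 1
      refine Finset.sum_congr rfl fun i _ => Finset.sum_congr rfl fun j _ => ?_
      exact htr _ _
    simp only [wt, e]
  by_cases hx : x ∈ Set.pi univ (fun _ : Fin n => Λ)
  · rw [indicator_of_mem (hmem.2 hx), indicator_of_mem hx, hw]
  · rw [indicator_of_notMem (fun h => hx (hmem.1 h)), indicator_of_notMem hx]

theorem b2one : B2one := by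
  intro Λ ψ μ
  have h0 : (1 : ℝ≥0∞) = ENNReal.ofReal (Real.exp (μ * (0 : ℕ))) * Zc 0 Λ ψ := by
    have h1 : (Set.pi univ (fun _ : Fin 0 => Λ)) = univ := by
      ext x
      simp
    rw [Zc, h1, Measure.restrict_univ]
    have h2 : ∀ x : Fin 0 → E, ENNReal.ofReal (Real.exp (pairSum ψ x)) = 1 := by
      intro x
      simp [pairSum]
    simp only [h2, lintegral_const, one_mul, Nat.factorial_zero, Nat.cast_one, inv_one,
      CharP.cast_eq_zero, mul_zero, Real.exp_zero, ENNReal.ofReal_one]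
    have h3 : (volume : Measure (Fin 0 → E)) univ = 1 := by
      have := volume_pi_pi (fun _ : Fin 0 => (univ : Set E))
      rw [Set.pi_univ] at this
      simpa using this
    rw [h3]
  rw [h0]
  exact ENNReal.le_tsum 0

theorem b2stab : B2stab := by
  intro Λ ψ μ c hΛ hv h
  set v : ℝ := (volume Λ).toReal with hvdef
  have hv0 : 0 ≤ v := ENNReal.toReal_nonneg
  have hvol : volume Λ = ENNReal.ofReal v := (ENNReal.ofReal_toReal hv).symm
  set y : ℝ := Real.exp (μ - c) * v with hy
  have hy0 : 0 ≤ y := by positivity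
  have hexp : ENNReal.ofReal (Real.exp y) =
      ∑' n : ℕ, ENNReal.ofReal (y ^ n / n.factorial) := by
    rw [Real.exp_eq_exp_ℝ, NormedSpace.exp_eq_tsum_div]
    exact ENNReal.ofReal_tsum_of_nonneg (fun n => by positivity)
      (Real.summable_pow_div_factorial y)
  rw [hexp, Xi_eq]
  refine ENNReal.tsum_le_tsum fun n => ?_
  have h1 : ∫⁻ x in Set.pi univ (fun _ : Fin n => Λ), wt ψ μ x ≤
      ENNReal.ofReal (Real.exp ((μ - c) * n)) * ENNReal.ofReal (v ^ n) := by
    calc ∫⁻ x in Set.pi univ (fun _ : Fin n => Λ), wt ψ μ x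
        ≤ ∫⁻ _ in Set.pi univ (fun _ : Fin n => Λ), ENNReal.ofReal (Real.exp ((μ - c) * n)) := by
          refine setLIntegral_mono' (measurableSet_box hΛ n) fun x hx => ?_
          refine ENNReal.ofReal_le_ofReal (Real.exp_le_exp.2 ?_)
          have := h n x fun i => hx i (mem_univ i)
          nlinarith
      _ = ENNReal.ofReal (Real.exp ((μ - c) * n)) * ENNReal.ofReal (v ^ n) := by
          rw [setLIntegral_const, volume_pi_pi, Finset.prod_const, Finset.card_univ,
            Fintype.card_fin, hvol, ENNReal.ofReal_pow hv0]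
  refine (mul_le_mul_right h1 _).trans (le_of_eq ?_)
  have hf : (0 : ℝ) < n.factorial := by exact_mod_cast Nat.factorial_pos n
  rw [← ENNReal.ofReal_mul (Real.exp_pos _).le, show ((n.factorial : ℝ≥0∞))⁻¹ =
    ENNReal.ofReal ((n.factorial : ℝ)⁻¹) by
      rw [ENNReal.ofReal_inv_of_pos hf, ENNReal.ofReal_natCast],
    ← ENNReal.ofReal_mul (by positivity)]
  congr 1
  rw [hy, mul_pow, ← Real.exp_nat_mul, mul_comm (n : ℝ) (μ - c)]
  field_simp

theorem b2holder : B2holder := by
  intro Λ ψ χ μ μ' θ hΛ hψ hχ hθ hθ1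
  have h1θ : 0 < 1 - θ := by linarith
  rw [Xi_eq, Xi_eq, Xi_eq]
  set a : ℕ → ℝ≥0∞ := fun n => ((n.factorial : ℝ≥0∞))⁻¹ *
      ∫⁻ x in Set.pi univ (fun _ : Fin n => Λ), wt ψ μ x with ha
  set b : ℕ → ℝ≥0∞ := fun n => ((n.factorial : ℝ≥0∞))⁻¹ *
      ∫⁻ x in Set.pi univ (fun _ : Fin n => Λ), wt χ μ' x with hb
  have hn : ∀ n : ℕ, ((n.factorial : ℝ≥0∞))⁻¹ *
      ∫⁻ x in Set.pi univ (fun _ : Fin n => Λ),
        wt (fun x y => (1 - θ) * ψ x y + θ * χ x y) ((1 - θ) * μ + θ * μ') x ≤
      a n ^ (1 - θ) * b n ^ θ := by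
    intro n
    have h1 : ∀ x : Fin n → E,
        wt (fun x y => (1 - θ) * ψ x y + θ * χ x y) ((1 - θ) * μ + θ * μ') x =
          wt ψ μ x ^ (1 - θ) * wt χ μ' x ^ θ := by
      intro x
      have e : pairSum (fun x y => (1 - θ) * ψ x y + θ * χ x y) x =
          (1 - θ) * pairSum ψ x + θ * pairSum χ x := by
        unfold pairSum
        simp only [Finset.sum_add_distrib, ← Finset.mul_sum]
        ring
      rw [wt, wt, wt, e, ENNReal.ofReal_rpow_of_pos (Real.exp_pos _),
        ENNReal.ofReal_rpow_of_pos (Real.exp_pos _), ← Real.exp_mul, ← Real.exp_mul,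
        ← ENNReal.ofReal_mul (Real.exp_pos _).le, ← Real.exp_add]
      congr 2
      ring
    simp only [h1]
    have h2 := ENNReal.lintegral_mul_norm_pow_le
      (μ := (volume : Measure (Fin n → E)).restrict (Set.pi univ (fun _ : Fin n => Λ)))
      (measurable_wt hψ μ n).aemeasurable (measurable_wt hχ μ' n).aemeasurable
      h1θ.le hθ.le (by ring : (1 - θ) + θ = 1)
    calc ((n.factorial : ℝ≥0∞))⁻¹ * ∫⁻ x in Set.pi univ (fun _ : Fin n => Λ),
          wt ψ μ x ^ (1 - θ) * wt χ μ' x ^ θ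
        ≤ ((n.factorial : ℝ≥0∞))⁻¹ *
          ((∫⁻ x in Set.pi univ (fun _ : Fin n => Λ), wt ψ μ x) ^ (1 - θ) *
            (∫⁻ x in Set.pi univ (fun _ : Fin n => Λ), wt χ μ' x) ^ θ) := by
          gcongr
      _ = a n ^ (1 - θ) * b n ^ θ := by
          rw [ha, hb]
          simp only
          rw [ENNReal.mul_rpow_of_nonneg _ _ h1θ.le, ENNReal.mul_rpow_of_nonneg _ _ hθ.le]
          have e : ((n.factorial : ℝ≥0∞))⁻¹ =
              ((n.factorial : ℝ≥0∞))⁻¹ ^ (1 - θ) * ((n.factorial : ℝ≥0∞))⁻¹ ^ θ := by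
            rw [← ENNReal.rpow_add_of_nonneg _ _ h1θ.le hθ.le]
            simp
          conv_lhs => rw [e]
          ring
  have h3 := ENNReal.lintegral_mul_norm_pow_le (μ := (Measure.count : Measure ℕ))
    (measurable_from_nat (f := a)).aemeasurable (measurable_from_nat (f := b)).aemeasurable
    h1θ.le hθ.le (by ring : (1 - θ) + θ = 1)
  simp only [lintegral_count] at h3
  exact (ENNReal.tsum_le_tsum hn).trans h3

end Vale.Agent.P171
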