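import Vale.Agent.P171.Goals

/-!
# P171, block B8: a near-kink survives the step and is sharpened

Pure convex analysis.
-/

open MeasureTheory Set Filter Topology

namespace Vale.Agent.P171

/-- projection of a compact set of pairs is closed -/
theorem b8_closed {P P' : ℝ → ℝ} (hP : Continuous P) (hP' : Continuous P') (w η a b : ℝ)
    (T : Set (ℝ × ℝ)) (hT : IsClosed T) :
    IsClosed {μ : ℝ | μ ∈ Icc a b ∧ ∃ m ∈ Icc (0 : ℝ) 3, (μ, m) ∈ T ∧
      P' μ ≤ P (μ + w * m) - w * m ^ 2 / 2 + η} := by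
  have hc : IsCompact ((Icc a b ×ˢ Icc (0 : ℝ) 3) ∩
      (T ∩ {q : ℝ × ℝ | P' q.1 ≤ P (q.1 + w * q.2) - w * q.2 ^ 2 / 2 + η})) := by
    apply IsCompact.inter_right (isCompact_Icc.prod isCompact_Icc)
    apply hT.inter
    apply isClosed_le
    · fun_prop
    · fun_prop
  have h2 := (hc.image continuous_fst).isClosed
  convert h2 using 1
  ext μ
  constructor
  · rintro ⟨hμ, m, hm, hTm, hle⟩
    exact ⟨(μ, m), ⟨⟨hμ, hm⟩, hTm, hle⟩, rfl⟩
  · rintro ⟨⟨μ, m⟩, ⟨⟨hμ, hm⟩, hTm, hle⟩, rfl⟩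
    exact ⟨hμ, m, hm, hTm, hle⟩

/-- slopes of a convex function beyond a chord to the right -/
theorem b8_right {P : ℝ → ℝ} (hP : ConvexOn ℝ univ P) {x y z s : ℝ} (hxy : x < y) (hyz : y ≤ z)
    (hs : s * (y - x) ≤ P y - P x) : P y + s * (z - y) ≤ P z := by
  rcases hyz.eq_or_lt with rfl | hyz
  · simp
  have h := hP.slope_mono_adjacent (mem_univ x) (mem_univ z) hxy hyz
  have h1 : s ≤ (P y - P x) / (y - x) := by
    rw [le_div_iff₀ (by linarith)]; exact hs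
  have h2 : s ≤ (P z - P y) / (z - y) := h1.trans h
  rw [le_div_iff₀ (by linarith)] at h2
  linarith

/-- slopes of a convex function beyond a chord to the left -/
theorem b8_left {P : ℝ → ℝ} (hP : ConvexOn ℝ univ P) {x y z s : ℝ} (hxy : x ≤ y) (hyz : y < z)
    (hs : P z - P y ≤ s * (z - y)) : P y + s * (x - y) ≤ P x := by
  rcases hxy.eq_or_lt with rfl | hxy
  · simp
  have h := hP.slope_mono_adjacent (mem_univ x) (mem_univ z) hxy hyz
  have h1 : (P z - P y) / (z - y) ≤ s := by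
    rw [div_le_iff₀ (by linarith)]; exact hs
  have h2 : (P y - P x) / (y - x) ≤ s := h.trans h1
  rw [div_le_iff₀ (by linarith)] at h2
  linarith

/-- the gain: one of the two tangent parabolas is high -/
theorem b8_gain {w η α β e u D : ℝ} (hw : 0 < w)
    (hα : α * (w * α - u) - w * α ^ 2 / 2 - e ≤ D)
    (hβ : β * (w * β - u) - w * β ^ 2 / 2 - e ≤ D) :
    2 * w * ((w * (β - α) ^ 2 / 8 - e - η) + η) - u ^ 2 ≤ 2 * w * D := by
  have hw2 : 0 ≤ 2 * w := by linarith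
  have h1 := mul_le_mul_of_nonneg_left hα hw2
  have h2 := mul_le_mul_of_nonneg_left hβ hw2
  nlinarith [sq_nonneg ((w * α - u) + (w * β - u))]

/-- the right maximiser is at distance at least `r` -/
theorem b8_far_right {w η G u h D Δ C r : ℝ} (hw : 0 < w) (hu0 : 0 ≤ u) (hh0 : 0 ≤ h) (hC : 0 < C)
    (hD : 2 * w * (G + η) - u ^ 2 ≤ 2 * w * D)
    (hle : 2 * w * (D - η) ≤ 2 * w * Δ - (u + h) ^ 2)
    (hlip : h < r → Δ ≤ C * h) (hCr : C * r ≤ G) : r ≤ h := by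
  have h6 : G ≤ Δ := by
    have : 2 * w * G ≤ 2 * w * Δ := by nlinarith [mul_nonneg hu0 hh0, sq_nonneg h]
    exact le_of_mul_le_mul_left this (by linarith)
  by_contra hcon
  push Not at hcon
  have h1 := hlip hcon
  have h2 : C * h < C * r := mul_lt_mul_of_pos_left hcon hC
  linarith

/-- the left maximiser is at distance at least `r` -/
theorem b8_far_left {w η G u k D Δ r : ℝ} (hw : 0 < w) (hu3 : u ≤ 3 * w) (hk0 : 0 ≤ k)
    (hD : 2 * w * (G + η) - u ^ 2 ≤ 2 * w * D)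
    (hle : 2 * w * (D - η) ≤ 2 * w * Δ - (u - k) ^ 2) (hΔ : Δ ≤ 0)
    (h3r : 3 * r ≤ G) : r ≤ k := by
  have h9 : 2 * w * G ≤ 2 * w * Δ + 2 * u * k := by nlinarith [sq_nonneg k]
  have h9' : 2 * w * Δ ≤ 0 := mul_nonpos_of_nonneg_of_nonpos (by linarith) hΔ
  have h9'' : 2 * u * k ≤ 2 * (3 * w) * k := by
    have := mul_le_mul_of_nonneg_right hu3 hk0
    linarith
  have h10 : 2 * w * G ≤ 2 * w * (3 * k) := by linarith
  have h11 : G ≤ 3 * k := le_of_mul_le_mul_left h10 (by linarith)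
  linarith

/-- the slopes at the two maximisers give the kink -/
theorem b8_shift {P P' : ℝ → ℝ} {w η α β e μ₀ μ' m₁ m₂ h k r : ℝ} (hconv : ConvexOn ℝ univ P)
    (hr : 0 < r) (he : 0 ≤ e) (hhr : r ≤ h) (hkr : r ≤ k)
    (hK : Kink P μ₀ α β e)
    (hlow : ∀ μ m, P (μ + w * m) - w * m ^ 2 / 2 ≤ P' μ)
    (hν₂ : μ' + w * m₂ = μ₀ + h) (hν₁ : μ' + w * m₁ = μ₀ - k)
    (hle₁ : P' μ' ≤ P (μ₀ - k) - w * m₁ ^ 2 / 2 + η)
    (hle₂ : P' μ' ≤ P (μ₀ + h) - w * m₂ ^ 2 / 2 + η)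
    (hslopes : α + e / r ≤ β - e / r) :
    Kink P' μ' (α + e / r) (β - e / r) η := by
  have hr' : e / r * r = e := div_mul_cancel₀ e hr.ne'
  have her : 0 ≤ e / r := div_nonneg he hr.le
  have hehr : e ≤ e / r * h := by
    have := mul_le_mul_of_nonneg_left hhr her
    linarith
  have hekr : e ≤ e / r * k := by
    have := mul_le_mul_of_nonneg_left hkr her
    linarith
  have hsR : ∀ μ, μ' ≤ μ → P' μ' - η + (β - e / r) * (μ - μ') ≤ P' μ := by
    intro μ hμ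
    have hl := hlow μ m₂
    have hKh := (hK (μ₀ + h)).2
    have hs := b8_right hconv (x := μ₀) (y := μ₀ + h) (z := μ₀ + h + (μ - μ')) (s := β - e / r)
      (by linarith) (by linarith) (by linarith)
    have heq : μ + w * m₂ = μ₀ + h + (μ - μ') := by rw [← hν₂]; ring
    rw [heq] at hl
    have : μ₀ + h + (μ - μ') - (μ₀ + h) = μ - μ' := by ring
    rw [this] at hs
    linarith
  have hsL : ∀ μ, μ ≤ μ' → P' μ' - η + (α + e / r) * (μ - μ') ≤ P' μ := by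
    intro μ hμ
    have hl := hlow μ m₁
    have hKk := (hK (μ₀ - k)).1
    have hs := b8_left hconv (x := μ₀ - k + (μ - μ')) (y := μ₀ - k) (z := μ₀) (s := α + e / r)
      (by linarith) (by linarith) (by linarith)
    have heq : μ + w * m₁ = μ₀ - k + (μ - μ') := by rw [← hν₁]; ring
    rw [heq] at hl
    have : μ₀ - k + (μ - μ') - (μ₀ - k) = μ - μ' := by ring
    rw [this] at hs
    linarith
  intro μ
  rcases le_total μ' μ with hμ | hμ
  · have h1 := hsR μ hμ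
    have h2 := mul_le_mul_of_nonneg_right hslopes (sub_nonneg.mpr hμ)
    exact ⟨by linarith, h1⟩
  · have h1 := hsL μ hμ
    have h2 := mul_le_mul_of_nonneg_right hslopes (sub_nonneg.mpr hμ)
    refine ⟨h1, ?_⟩
    have h3 : (β - e / r) * (μ - μ') ≤ (α + e / r) * (μ - μ') := by linarith
    linarith

theorem b8 : B8 := by
  intro P P' w η α β e μ₀ C r₀ r hconv hmono hcont' _hmono' hw hη he hα hαβ hβ hC hK hlow hup hlip
    hr hrr hCr h3r hslopes
  have hPc : Continuous P := by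
    rw [← continuousOn_univ]
    exact hconv.continuousOn isOpen_univ
  -- the two closed sets
  set SL : Set ℝ := {μ : ℝ | μ ∈ Icc (μ₀ - 3 * w) μ₀ ∧ ∃ m ∈ Icc (0 : ℝ) 3,
    (μ, m) ∈ {q : ℝ × ℝ | q.1 + w * q.2 ≤ μ₀} ∧
      P' μ ≤ P (μ + w * m) - w * m ^ 2 / 2 + η} with hSL
  set SR : Set ℝ := {μ : ℝ | μ ∈ Icc (μ₀ - 3 * w) μ₀ ∧ ∃ m ∈ Icc (0 : ℝ) 3,
    (μ, m) ∈ {q : ℝ × ℝ | μ₀ ≤ q.1 + w * q.2} ∧
      P' μ ≤ P (μ + w * m) - w * m ^ 2 / 2 + η} with hSR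
  have hcL : IsClosed SL := b8_closed hPc hcont' w η _ _ _
    (isClosed_le (by fun_prop) continuous_const)
  have hcR : IsClosed SR := b8_closed hPc hcont' w η _ _ _
    (isClosed_le continuous_const (by fun_prop))
  have hcov : Icc (μ₀ - 3 * w) μ₀ ⊆ SL ∪ SR := by
    intro μ hμ
    obtain ⟨m, hm, hle⟩ := hup μ hμ
    rcases le_total (μ + w * m) μ₀ with h | h
    · exact Or.inl ⟨hμ, m, hm, h, hle⟩
    · exact Or.inr ⟨hμ, m, hm, h, hle⟩
  have hleft : μ₀ - 3 * w ∈ Icc (μ₀ - 3 * w) μ₀ := ⟨le_refl _, by linarith⟩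
  have hright : μ₀ ∈ Icc (μ₀ - 3 * w) μ₀ := ⟨by linarith, le_refl _⟩
  have hneL : (Icc (μ₀ - 3 * w) μ₀ ∩ SL).Nonempty := by
    obtain ⟨m, hm, hle⟩ := hup _ hleft
    have h1 : μ₀ - 3 * w + w * m ≤ μ₀ := by
      have := mul_le_mul_of_nonneg_left hm.2 hw.le
      linarith
    exact ⟨μ₀ - 3 * w, hleft, hleft, m, hm, h1, hle⟩
  have hneR : (Icc (μ₀ - 3 * w) μ₀ ∩ SR).Nonempty := by
    obtain ⟨m, hm, hle⟩ := hup _ hright
    have h1 : μ₀ ≤ μ₀ + w * m := by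
      have := mul_nonneg hw.le hm.1
      linarith
    exact ⟨μ₀, hright, hright, m, hm, h1, hle⟩
  have hconn : IsPreconnected (Icc (μ₀ - 3 * w) μ₀) := isPreconnected_Icc
  obtain ⟨μ', hμ', ⟨_, m₁, hm₁, hν₁, hle₁⟩, ⟨_, m₂, hm₂, hν₂, hle₂⟩⟩ :=
    (isPreconnected_closed_iff.mp hconn) SL SR hcL hcR hcov hneL hneR
  have hν₁' : μ' + w * m₁ ≤ μ₀ := hν₁
  have hν₂' : μ₀ ≤ μ' + w * m₂ := hν₂
  clear hν₁ hν₂ hcL hcR hcov hneL hneR hconn
  clear hSL hSR SL SR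
  obtain ⟨u, hμeq⟩ : ∃ u, μ' = μ₀ - u := ⟨μ₀ - μ', by ring⟩
  have hu0 : 0 ≤ u := by linarith [hμ'.2]
  have hu3 : u ≤ 3 * w := by linarith [hμ'.1]
  obtain ⟨h, hh⟩ : ∃ h, μ' + w * m₂ = μ₀ + h := ⟨μ' + w * m₂ - μ₀, by ring⟩
  obtain ⟨k, hk⟩ : ∃ k, μ' + w * m₁ = μ₀ - k := ⟨μ₀ - (μ' + w * m₁), by ring⟩
  have hh0 : 0 ≤ h := by linarith
  have hk0 : 0 ≤ k := by linarith
  rw [hh] at hle₂
  rw [hk] at hle₁
  have hD : 2 * w * ((w * (β - α) ^ 2 / 8 - e - η) + η) - u ^ 2 ≤ 2 * w * (P' μ' - P μ₀) := by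
    apply b8_gain hw
    · have h1 := hlow μ' α
      have h2 := (hK (μ' + w * α)).1
      have h3 : μ' + w * α - μ₀ = w * α - u := by rw [hμeq]; ring
      rw [h3] at h2
      linarith
    · have h1 := hlow μ' β
      have h2 := (hK (μ' + w * β)).2
      have h3 : μ' + w * β - μ₀ = w * β - u := by rw [hμeq]; ring
      rw [h3] at h2
      linarith
  have hw2 : 0 ≤ 2 * w := by linarith
  have hhr : r ≤ h := by
    apply b8_far_right (Δ := P (μ₀ + h) - P μ₀) hw hu0 hh0 hC hD _ _ hCr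
    · have h1 : w * m₂ = u + h := by linarith
      have h2 : 2 * w * (w * m₂ ^ 2 / 2) = (u + h) ^ 2 := by rw [← h1]; ring
      have h3 := mul_le_mul_of_nonneg_left hle₂ hw2
      linarith
    · intro hhr
      have := hlip h ⟨hh0, by linarith⟩
      linarith
  have hkr : r ≤ k := by
    apply b8_far_left (Δ := P (μ₀ - k) - P μ₀) hw hu3 hk0 hD _ _ h3r
    · have h1 : w * m₁ = u - k := by linarith
      have h2 : 2 * w * (w * m₁ ^ 2 / 2) = (u - k) ^ 2 := by rw [← h1]; ring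
      have h3 := mul_le_mul_of_nonneg_left hle₁ hw2
      linarith
    · have := hmono (show μ₀ - k ≤ μ₀ by linarith)
      linarith
  exact ⟨μ', hμ', b8_shift hconv hr he hhr hkr hK hlow hh hk hle₁ hle₂ hslopes⟩

end Vale.Agent.P171
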