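import Mathlib

/-!
# P171: definitions shared by all blocks

All potentials are written as pair weights `ψ : E → E → ℝ` on `E = ℝ³` and all energies as half of the
FULL double sum, diagonal included, so that the weight of a configuration is `exp (μ n + pairSum ψ x)`.
-/

open MeasureTheory Set Filter Topology
open scoped ENNReal

namespace Vale.Agent.P171

/-- Euclidean three-space -/
abbrev E := EuclideanSpace ℝ (Fin 3)

/-- half of the full double sum (diagonal included) -/
noncomputable def pairSum {ι : Type*} [Fintype ι] (ψ : E → E → ℝ) (x : ι → E) : ℝ :=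
  (1 / 2) * ∑ i, ∑ j, ψ (x i) (x j)

/-- `(1 / n!) ∫_{Λ^n} exp (pairSum ψ x) dx` -/
noncomputable def Zc (n : ℕ) (Λ : Set E) (ψ : E → E → ℝ) : ℝ≥0∞ :=
  ((n.factorial : ℝ≥0∞))⁻¹ *
    ∫⁻ x in Set.pi univ (fun _ : Fin n => Λ), ENNReal.ofReal (Real.exp (pairSum ψ x))

/-- grand canonical partition function with activity `exp μ` -/
noncomputable def Xi (Λ : Set E) (ψ : E → E → ℝ) (μ : ℝ) : ℝ≥0∞ :=
  ∑' n : ℕ, ENNReal.ofReal (Real.exp (μ * n)) * Zc n Λ ψ

/-- closed cube `[0, L]³` -/
def cube (L : ℝ) : Set E := {x | ∀ i, 0 ≤ x i ∧ x i ≤ L}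

/-- index of the cell of side `s` and offset `a` which contains `x` -/
noncomputable def cell (s a : ℝ) (x : E) : Fin 3 → ℤ := fun i => ⌊(x i - a) / s⌋

/-- `1` if `x`, `y` lie in the same cell of side `s` and offset `a`, else `0` -/
noncomputable def same (s a : ℝ) (x y : E) : ℝ := if cell s a x = cell s a y then 1 else 0

/-- the potential with repulsion `A` at distance `< 2` and attraction `K` -/
noncomputable def pot (A : ℝ) (K : E → E → ℝ) (x y : E) : ℝ :=
  K x y - (if dist x y < 2 then A else 0)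

/-- attraction of weight `w` at scale `l`: normalised autocorrelation of the ball of radius `l` -/
noncomputable def J (w l : ℝ) (x y : E) : ℝ :=
  w / (volume (Metric.ball (0 : E) l)).toReal ^ 2 *
    (volume (Metric.ball x l ∩ Metric.ball y l)).toReal

/-- admissible attractions -/
structure Attr (K : E → E → ℝ) (S : ℝ) : Prop where
  meas : Measurable (Function.uncurry K)
  trans : ∀ a x y, K (x + a) (y + a) = K x y
  symm : ∀ x y, K x y = K y x
  nonneg : ∀ x y, 0 ≤ K x y
  bd : ∀ (n : ℕ) (x : Fin n → E), pairSum K x ≤ S * pairSum (same 1 0) x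

/-- the pressure, as a supremum over cubes -/
noncomputable def pres (ψ : E → E → ℝ) (μ : ℝ) : ℝ :=
  ⨆ s : {s : ℝ // 0 < s}, Real.log (Xi (cube (s : ℝ)) ψ μ).toReal / ((s : ℝ) + 2) ^ 3

/-- `P` lies above the kink at `μ₀` with slopes `α`, `β`, up to the error `e` -/
def Kink (P : ℝ → ℝ) (μ₀ α β e : ℝ) : Prop :=
  ∀ μ, P μ₀ - e + α * (μ - μ₀) ≤ P μ ∧ P μ₀ - e + β * (μ - μ₀) ≤ P μ

end Vale.Agent.P171
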