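import Vale.Agent.P171.Basic

/-!
# P171: exact statements of the blocks

Every block proves `theorem bX : BX` for the `Prop`s below (in its own file).
-/

open MeasureTheory Set Filter Topology
open scoped ENNReal

namespace Vale.Agent.P171

/-! ## B1: factorisation -/

/-- B1a: no interaction across -/
def B1a : Prop :=
  ∀ (A B : Set E) (ψ : E → E → ℝ) (μ : ℝ), MeasurableSet A → MeasurableSet B → Disjoint A B →
    Measurable (Function.uncurry ψ) → (∀ x ∈ A, ∀ y ∈ B, ψ x y = 0 ∧ ψ y x = 0) →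
    Xi (A ∪ B) ψ μ = Xi A ψ μ * Xi B ψ μ

/-- B1b: nonnegative (attractive) interaction across -/
def B1b : Prop :=
  ∀ (A B : Set E) (ψ : E → E → ℝ) (μ : ℝ), MeasurableSet A → MeasurableSet B → Disjoint A B →
    Measurable (Function.uncurry ψ) → (∀ x ∈ A, ∀ y ∈ B, 0 ≤ ψ x y ∧ 0 ≤ ψ y x) →
    Xi A ψ μ * Xi B ψ μ ≤ Xi (A ∪ B) ψ μ

/-- B1c: finitely many regions, no interaction across -/
def B1c : Prop :=
  ∀ (κ : Type) (F : Finset κ) (A : κ → Set E) (ψ : E → E → ℝ) (μ : ℝ),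
    (∀ c ∈ F, MeasurableSet (A c)) → Measurable (Function.uncurry ψ) →
    (∀ c ∈ F, ∀ d ∈ F, c ≠ d → Disjoint (A c) (A d)) →
    (∀ c ∈ F, ∀ d ∈ F, c ≠ d → ∀ x ∈ A c, ∀ y ∈ A d, ψ x y = 0) →
    Xi (⋃ c ∈ F, A c) ψ μ = ∏ c ∈ F, Xi (A c) ψ μ

/-- B1d: finitely many regions, attraction across -/
def B1d : Prop :=
  ∀ (κ : Type) (F : Finset κ) (A : κ → Set E) (ψ : E → E → ℝ) (μ : ℝ),
    (∀ c ∈ F, MeasurableSet (A c)) → Measurable (Function.uncurry ψ) →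
    (∀ c ∈ F, ∀ d ∈ F, c ≠ d → Disjoint (A c) (A d)) →
    (∀ c ∈ F, ∀ d ∈ F, c ≠ d → ∀ x ∈ A c, ∀ y ∈ A d, 0 ≤ ψ x y) →
    ∏ c ∈ F, Xi (A c) ψ μ ≤ Xi (⋃ c ∈ F, A c) ψ μ

/-! ## B2: elementary properties of `Xi` -/

def B2mono_set : Prop :=
  ∀ (Λ Λ' : Set E) (ψ : E → E → ℝ) (μ : ℝ), Λ ⊆ Λ' → Xi Λ ψ μ ≤ Xi Λ' ψ μ

def B2mono : Prop :=
  ∀ (Λ : Set E) (ψ ψ' : E → E → ℝ) (μ μ' : ℝ), MeasurableSet Λ →
    (∀ (n : ℕ) (x : Fin n → E), (∀ i, x i ∈ Λ) → μ * n + pairSum ψ x ≤ μ' * n + pairSum ψ' x) →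
    Xi Λ ψ μ ≤ Xi Λ ψ' μ'

/-- only the values of `ψ` on `Λ × Λ` matter -/
def B2congr : Prop :=
  ∀ (Λ : Set E) (ψ ψ' : E → E → ℝ) (μ : ℝ), MeasurableSet Λ →
    (∀ x ∈ Λ, ∀ y ∈ Λ, ψ x y = ψ' x y) → Xi Λ ψ μ = Xi Λ ψ' μ

def B2trans : Prop :=
  ∀ (Λ : Set E) (ψ : E → E → ℝ) (μ : ℝ) (a : E), MeasurableSet Λ →
    Measurable (Function.uncurry ψ) → (∀ x y, ψ (x + a) (y + a) = ψ x y) →
    Xi ((fun x => x + a) '' Λ) ψ μ = Xi Λ ψ μ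

def B2one : Prop := ∀ (Λ : Set E) (ψ : E → E → ℝ) (μ : ℝ), 1 ≤ Xi Λ ψ μ

/-- stability bound -/
def B2stab : Prop :=
  ∀ (Λ : Set E) (ψ : E → E → ℝ) (μ c : ℝ), MeasurableSet Λ → volume Λ ≠ ⊤ →
    (∀ (n : ℕ) (x : Fin n → E), (∀ i, x i ∈ Λ) → pairSum ψ x ≤ -c * n) →
    Xi Λ ψ μ ≤ ENNReal.ofReal (Real.exp (Real.exp (μ - c) * (volume Λ).toReal))

/-- Hoelder, in the potential and the chemical potential at once -/
def B2holder : Prop :=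
  ∀ (Λ : Set E) (ψ χ : E → E → ℝ) (μ μ' θ : ℝ), MeasurableSet Λ →
    Measurable (Function.uncurry ψ) → Measurable (Function.uncurry χ) → 0 < θ → θ < 1 →
    Xi Λ (fun x y => (1 - θ) * ψ x y + θ * χ x y) ((1 - θ) * μ + θ * μ') ≤
      (Xi Λ ψ μ) ^ (1 - θ) * (Xi Λ χ μ') ^ θ

/-! ## B3: thermodynamic limit -/

/-- admissible potentials: attractive beyond distance 2, stable -/
structure Adm (ψ : E → E → ℝ) : Prop where
  meas : Measurable (Function.uncurry ψ)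
  trans : ∀ a x y, ψ (x + a) (y + a) = ψ x y
  far : ∀ x y, 2 ≤ dist x y → 0 ≤ ψ x y
  stab : ∀ (n : ℕ) (x : Fin n → E), pairSum ψ x ≤ 0

def B3sup : Prop :=
  ∀ (ψ : E → E → ℝ) (μ s : ℝ), Adm ψ → 0 < s →
    Real.log (Xi (cube s) ψ μ).toReal ≤ (s + 2) ^ 3 * pres ψ μ

def B3lim : Prop :=
  ∀ (ψ : E → E → ℝ) (μ : ℝ), Adm ψ →
    Tendsto (fun L : ℝ => Real.log (Xi (cube L) ψ μ).toReal / L ^ 3) atTop (𝓝 (pres ψ μ))

def B3nonneg : Prop := ∀ (ψ : E → E → ℝ) (μ : ℝ), Adm ψ → 0 ≤ pres ψ μ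

def B3le : Prop :=
  ∀ (ψ : E → E → ℝ) (μ c : ℝ), Adm ψ → (∀ (n : ℕ) (x : Fin n → E), pairSum ψ x ≤ -c * n) →
    pres ψ μ ≤ Real.exp (μ - c)

def B3mono : Prop := ∀ (ψ : E → E → ℝ), Adm ψ → Monotone (pres ψ)

def B3convex : Prop := ∀ (ψ : E → E → ℝ), Adm ψ → ConvexOn ℝ univ (pres ψ)

/-! ## B4: the attraction kernel -/

def B4cells : Prop :=
  ∀ (w l s a : ℝ) (n : ℕ) (x : Fin n → E), 0 ≤ w → 0 < l → 0 < s →
    pairSum (J w l) x ≤ w * (1 + 2 * s / l) ^ 6 / s ^ 3 * pairSum (same s a) x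

def B4attr : Prop := ∀ (w l : ℝ), 0 ≤ w → 0 < l → Attr (J w l) (w * (1 + 2 / l) ^ 6)

def B4lower : Prop :=
  ∀ (w l L m : ℝ) (n : ℕ) (x : Fin n → E), 0 ≤ w → 0 < l → 0 < L → (∀ i, x i ∈ cube L) →
    w * m * n - w * m ^ 2 / 2 * (L + 2 * l) ^ 3 ≤ pairSum (J w l) x

def B4far : Prop := ∀ (w l : ℝ) (x y : E), 2 * l ≤ dist x y → J w l x y = 0

def B4le : Prop := ∀ (w l : ℝ) (x y : E), 0 ≤ w → 0 < l → J w l x y ≤ w / l ^ 3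

/-- radial profile of `J` -/
noncomputable def jrad (w l r : ℝ) : ℝ := J w l 0 (EuclideanSpace.single 0 r)

def B4radial : Prop :=
  (∀ (w l : ℝ) (x y : E), J w l x y = jrad w l (dist x y)) ∧
    ∀ w l, Measurable (jrad w l)

/-! ## B5: cells -/

/-- two points at distance `≤ R` are in the same cell for most of the `s` integer offsets -/
def B5avg : Prop :=
  ∀ (s : ℕ) (R : ℝ) (x y : E), 1 ≤ s → dist x y ≤ R →
    (s : ℝ) - 3 * (R + 1) ≤ ∑ τ ∈ Finset.range s, same s τ x y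

def B5sub : Prop :=
  ∀ (s τ : ℕ) (x y : E), 1 ≤ s → cell 1 0 x = cell 1 0 y → cell s τ x = cell s τ y

def B5dist : Prop := ∀ (x y : E), cell 1 0 x = cell 1 0 y → dist x y < 2

/-- `N² ≤ s³ ∑ N_c²` for points of `[0, s)³` -/
def B5cs : Prop :=
  ∀ (s n : ℕ) (x : Fin n → E), 1 ≤ s → (∀ i k, 0 ≤ x i k ∧ x i k < s) →
    (n : ℝ) ^ 2 / 2 ≤ (s : ℝ) ^ 3 * pairSum (same 1 0) x

def B5diag : Prop := ∀ (n : ℕ) (x : Fin n → E), (n : ℝ) / 2 ≤ pairSum (same 1 0) x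

/-- `pot A K` is admissible, with room to spare -/
def B5pot : Prop :=
  ∀ (A S : ℝ) (K : E → E → ℝ), Attr K S → 0 ≤ A →
    ∀ (n : ℕ) (x : Fin n → E), pairSum (pot A K) x ≤ (S - A) * pairSum (same 1 0) x

def B5adm : Prop := ∀ (A S : ℝ) (K : E → E → ℝ), Attr K S → 0 ≤ A → S ≤ A → Adm (pot A K)

/-! ## B6, B7: the two halves of the Lebowitz-Penrose step -/

def B6 : Prop :=
  ∀ (A R w l μ : ℝ) (s : ℕ) (K : E → E → ℝ), Attr K (A / 8) → 0 ≤ R →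
    (∀ x y, R ≤ dist x y → K x y = 0) → 10 ≤ A → 0 < w → w ≤ A / 16 → 1 ≤ s →
    40 * s ≤ l → (R + 1) * A ≤ s → μ ≤ A / 2 →
    ∃ m ∈ Icc (0 : ℝ) 3,
      pres (pot A (fun x y => K x y + J w l x y)) μ ≤
        pres (pot A K) (μ + w * m) - w * m ^ 2 / 2 + 100 * Real.exp A * ((R + 1) / s + s / l)

def B7 : Prop :=
  ∀ (A S w l μ m : ℝ) (K : E → E → ℝ), Attr K S → 0 ≤ w → 0 < l →
    S + w * (1 + 2 / l) ^ 6 ≤ A →
    pres (pot A K) (μ + w * m) - w * m ^ 2 / 2 ≤ pres (pot A (fun x y => K x y + J w l x y)) μ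

/-! ## B8: convex analysis: a near-kink survives and is sharpened -/

def B8 : Prop :=
  ∀ (P P' : ℝ → ℝ) (w η α β e μ₀ C r₀ r : ℝ),
    ConvexOn ℝ univ P → Monotone P → Continuous P' → Monotone P' →
    0 < w → 0 ≤ η → 0 ≤ e → 0 ≤ α → α < β → β ≤ 3 → 0 < C →
    Kink P μ₀ α β e →
    (∀ μ m, P (μ + w * m) - w * m ^ 2 / 2 ≤ P' μ) →
    (∀ μ ∈ Icc (μ₀ - 3 * w) μ₀, ∃ m ∈ Icc (0 : ℝ) 3, P' μ ≤ P (μ + w * m) - w * m ^ 2 / 2 + η) →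
    (∀ h ∈ Icc 0 r₀, P (μ₀ + h) ≤ P μ₀ + C * h) →
    0 < r → r ≤ r₀ → C * r ≤ w * (β - α) ^ 2 / 8 - e - η → 3 * r ≤ w * (β - α) ^ 2 / 8 - e - η →
    α + e / r ≤ β - e / r →
    ∃ μ' ∈ Icc (μ₀ - 3 * w) μ₀, Kink P' μ' (α + e / r) (β - e / r) η

/-! ## B9: adding a small attraction changes the pressure little -/

def B9 : Prop :=
  ∀ (A S S' μ : ℝ) (K K' : E → E → ℝ), Attr K S → Attr K' S' → 0 ≤ S' → S' ≤ 1 → 0 ≤ S →
    S + 1 ≤ A →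
    pres (pot A K) μ ≤ pres (pot A (fun x y => K x y + K' x y)) μ ∧
      pres (pot A (fun x y => K x y + K' x y)) μ ≤ pres (pot A K) μ + S' * Real.exp μ

/-! ## B10: the reference system -/

def B10 : Prop :=
  ∀ A : ℝ, 0 ≤ A →
    Kink (pres (pot A (fun _ _ => 0))) (A / 2) 0 (1 / 27) 1 ∧
      ∀ r, pres (pot A (fun _ _ => 0)) (A / 2 + r) ≤ Real.exp r

/-! ## B11: assembly -/

/-- the full attraction -/
noncomputable def Ktot (w l : ℕ → ℝ) (x y : E) : ℝ := ∑' k, J (w k) (l k) x y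

/-- there are weights and scales for which the pressure is not differentiable -/
def B11 : Prop :=
  ∃ (A C ε : ℝ) (w l : ℕ → ℝ), 0 < A ∧ 0 < ε ∧ (∀ k, 0 < w k) ∧ (∀ k, 0 < l k) ∧
    (∀ r, 0 < r → Summable (fun k => jrad (w k) (l k) r)) ∧
    (∀ r, 0 < r → ∑' k, jrad (w k) (l k) r ≤ C * r ^ (-3 - ε)) ∧
    (∃ M, ∀ r, |∑' k, jrad (w k) (l k) r| ≤ M) ∧
    Adm (pot A (Ktot w l)) ∧
    ∃ μ₀, ¬ DifferentiableAt ℝ (pres (pot A (Ktot w l))) μ₀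

/-! ## B12: from the definitions of the problem to `Xi` -/

/-- total energy `U_N = ∑_{i<j} φ(|x_i - x_j|)` -/
noncomputable def energy (φ : ℝ → ℝ) {N : ℕ} (x : Fin N → E) : ℝ :=
  ∑ i, ∑ j ∈ Finset.Ioi i, φ (dist (x i) (x j))

/-- canonical partition function `Z_{L,N}(β)` -/
noncomputable def Zcan (φ : ℝ → ℝ) (β L : ℝ) (N : ℕ) : ℝ :=
  (1 / (N.factorial : ℝ)) *
    ∫ x in Set.pi univ (fun _ : Fin N => cube L), Real.exp (-β * energy φ x)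

def B12 : Prop :=
  ∀ (φ : ℝ → ℝ) (L z : ℝ), Measurable φ → (∃ M, ∀ r, |φ r| ≤ M) →
    Adm (fun x y => -φ (dist x y)) → 0 < L → 0 < z →
    Summable (fun N : ℕ => z ^ N * Zcan φ 1 L N) ∧
      ∑' N : ℕ, z ^ N * Zcan φ 1 L N =
        (Xi (cube L) (fun x y => -φ (dist x y)) (Real.log z + φ 0 / 2)).toReal

end Vale.Agent.P171
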